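import Vale.Agent.P275.H341.Psh

set_option autoImplicit false

/-!
Row A1 of the lowest degree: the hook polynomial of the partition with one part.
-/

namespace Vale.Agent.P275.R2.H76

open Filter Topology Asymptotics Vale.Agent.P275.H341

/-- the partition with one part -/
def row1 (k : ℕ) : Fin k → ℕ := fun i => if (i : ℕ) = 0 then k else 0

theorem row1_mem (k : ℕ) : row1 k ∈ Pt k := by
  unfold Pt
  rw [Finset.mem_filter, Finset.Nat.mem_antidiagonalTuple]
  refine ⟨?_, ?_⟩
  · rcases k with _ | k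
    · simp
    · rw [Fin.sum_univ_succ]
      have h1 : ∀ i : Fin k, row1 (k + 1) i.succ = 0 := by
        intro i
        simp [row1]
      rw [Finset.sum_congr rfl (fun i _ => h1 i), Finset.sum_const_zero, add_zero]
      simp [row1]
  · intro i j hij
    unfold row1
    by_cases hj : (j : ℕ) = 0
    · have hi : (i : ℕ) = 0 := by
        have : (i : ℕ) ≤ j := hij
        omega
      rw [if_pos hj, if_pos hi]
    · rw [if_neg hj]
      exact Nat.zero_le _

theorem jt_row1 (u : ℕ → ℂ) (h0 : u 0 = 1) (k : ℕ) : jt u (row1 k) = u k := by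
  unfold jt
  rw [Matrix.det_of_upperTriangular]
  · rcases k with _ | k
    · simp [h0]
    · rw [Fin.prod_univ_succ]
      have h1 : ∀ i : Fin k, (Matrix.of fun i j : Fin (k + 1) =>
          if (i : ℕ) ≤ row1 (k + 1) i + j then u (row1 (k + 1) i + j - i) else 0) i.succ i.succ
          = 1 := by
        intro i
        simp [row1, h0]
      rw [Finset.prod_congr rfl (fun i _ => h1 i), Finset.prod_const_one, mul_one]
      simp [row1]
  · intro i j hij
    have h1 : (j : ℕ) < i := hij
    have h2 : ¬ ((i : ℕ) = 0) := by omega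
    show (if (i : ℕ) ≤ row1 k i + j then u (row1 k i + j - i) else 0) = 0
    rw [if_neg]
    unfold row1
    rw [if_neg h2]
    omega

theorem rowA1 (H8 : RowA8) (q : ℂ) (hq : q ≠ 0) (h1 : ∀ n, 0 < n → q ^ n ≠ 1) (k : ℕ) :
    row1 k ∈ Pt k ∧ hk q (row1 k) = ∏ i ∈ Finset.range k, (q ^ (i + 1) - 1) := by
  refine ⟨row1_mem k, ?_⟩
  have h := H8 q hq h1 k (row1 k) (row1_mem k)
  rw [jt_row1 _ (by simp) k, Finset.prod_inv_distrib] at h
  have hne : (∏ i ∈ Finset.range k, (q ^ (i + 1) - 1)) ≠ 0 := by
    rw [Finset.prod_ne_zero_iff]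
    intro i _
    exact sub_ne_zero.2 (h1 (i + 1) (Nat.succ_pos i))
  field_simp at h
  exact h

end Vale.Agent.P275.R2.H76
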